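import Vale.Agent.P338.Top

namespace Vale.Agent.Results.P338.Fast

open Vale.Agent.P338

theorem result :
    (∃ (A : TM) (δ C : ℝ), 0 < δ ∧ A.Multiplies ∧
      ∀ n : ℕ, 2 ≤ n → (A.worst n : ℝ) ≤ C * n * Real.log n ^ (1 - δ)) ∧
    ¬ ∀ A : TM, A.Multiplies → ∃ (c : ℝ) (N : ℕ), 0 < c ∧ 2 ≤ N ∧
      ∀ n ≥ N, c * n * Real.log n ≤ A.worst n :=
  ⟨fast, no_lower⟩

end Vale.Agent.Results.P338.Fast
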